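import Vale.Agent.P181.SZR3.Pow

set_option autoImplicit false

/-!
# P181, SZ: (R3), splitting a letter into letters of new sizes
-/

open MvPolynomial

namespace Vale.Agent.P181.SZR3

open Vale.Agent.P181.T4 (HW rowOp rowOp_apply mem_HW)
open Vale.Agent.P181.SZ (PK nn TransS SplitS)

lemma map_univ_toList (k : Multiset ℕ) :
    (Finset.univ : Finset (Fin k.toList.length)).val.map (fun j => k.toList.get j) = k := by
  rw [Fin.univ_val_map, List.ofFn_get, Multiset.coe_toList]

/-- Zeros do not matter. -/
lemma nn_filter (hT : TransS) (m : ℕ) (mu : Fin m → ℕ) (k : Multiset ℕ) :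
    nn m mu k = nn m mu (k.filter (0 < ·)) := by
  have h := hT m (Fin k.toList.length) (fun j => k.toList.get j) mu
  rw [map_univ_toList] at h
  exact h

lemma PW_univ (m : ℕ) (σ : Type) [Fintype σ] (d : σ → ℕ) (mu : Fin m → ℕ) :
    PW m σ {e | ∀ j, d (e j) = d j} d mu = PK m σ d mu := by
  apply le_antisymm
  · intro f hf
    exact hf
  · intro f hf
    exact hf

/-- The base degrees. -/
noncomputable def d1 (U rho : Multiset ℕ) (x : ℕ) :
    Option (Fin U.toList.length) ⊕ Fin rho.toList.length → ℕ
  | .inl none => x + U.sum
  | .inl (some _) => 0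
  | .inr r => rho.toList.get r

/-- The target degrees. -/
noncomputable def d2 (U rho : Multiset ℕ) (x : ℕ) :
    Option (Fin U.toList.length) ⊕ Fin rho.toList.length → ℕ
  | .inl none => x
  | .inl (some q) => U.toList.get q
  | .inr r => rho.toList.get r

lemma map_sum_val {α β : Type} [Fintype α] [Fintype β] (d : Option α ⊕ β → ℕ) :
    (Finset.univ : Finset (Option α ⊕ β)).val.map d = d (.inl none) ::ₘ
      ((Finset.univ : Finset α).val.map (fun q => d (.inl (some q))) +
        (Finset.univ : Finset β).val.map (fun r => d (.inr r))) := by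
  rw [← Finset.univ_disjSum_univ, Finset.val_disjSum, Multiset.disjSum, Multiset.map_add,
    Multiset.map_map, Multiset.map_map, univ_option, Finset.insertNone]
  simp [Function.comp_def, Multiset.map_map]

lemma get_mem (U : Multiset ℕ) (q : Fin U.toList.length) : U.toList.get q ∈ U := by
  have h : U.toList.get q ∈ U.toList := List.get_mem _ _
  exact Multiset.mem_toList.1 h

theorem splitS (hT : TransS) (m : ℕ) (mu : Fin m → ℕ) : SplitS (nn m mu) := by
  classical
  intro rho U x hx hUn hU hxr
  let σ := Option (Fin U.toList.length) ⊕ Fin rho.toList.length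
  let c : σ := .inl none
  let A : Finset σ := Finset.univ.image (fun q : Fin U.toList.length => (Sum.inl (some q) : σ))
  have hUnd : U.toList.Nodup := by
    rw [← Multiset.coe_nodup, Multiset.coe_toList]
    exact hUn
  have hsumA : ∑ q ∈ A, d2 U rho x q = U.sum := by
    rw [Finset.sum_image]
    · have h : ∑ q : Fin U.toList.length, d2 U rho x (.inl (some q)) =
          ((Finset.univ : Finset (Fin U.toList.length)).val.map
            (fun j => U.toList.get j)).sum := rfl
      rw [h, map_univ_toList]
    · intro q _ q' _ h
      exact Option.some_injective _ (Sum.inl_injective h)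
  have hG : ∀ e : Equiv.Perm σ, (∀ j, d2 U rho x (e j) = d2 U rho x j) →
      ∀ j : Option (Fin U.toList.length), e (.inl j) = .inl j := by
    intro e he j
    have h := he (.inl j)
    rcases j with _ | q
    · rcases hj : e (.inl none) with (_ | q') | r
      · rfl
      · rw [hj] at h
        exact absurd h (hU _ (get_mem U q')).2.2
      · rw [hj] at h
        have h' : rho.toList.get r = x := h
        exact absurd (h' ▸ get_mem rho r) hxr
    · rcases hj : e (.inl (some q)) with (_ | q') | r
      · rw [hj] at h
        exact absurd h.symm (hU _ (get_mem U q)).2.2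
      · rw [hj] at h
        have h' : q' = q := List.nodup_iff_injective_get.1 hUnd h
        rw [h']
      · rw [hj] at h
        have h' : rho.toList.get r = U.toList.get q := h
        exact absurd (h' ▸ get_mem rho r) (hU _ (get_mem U q)).2.1
  have h1 : Module.finrank ℂ (PK m σ (d1 U rho x) mu) ≤
      Module.finrank ℂ (PW m σ {e | ∀ j, d2 U rho x (e j) = d2 U rho x j} (d1 U rho x) mu) := by
    apply Submodule.finrank_mono
    rintro f ⟨hf1, hf2, hf3⟩
    refine ⟨hf1, hf2, fun e he => hf3 e fun j => ?_⟩
    rcases j with j | r
    · rw [hG e he j]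
    · rcases hj : e (.inr r) with j | r'
      · rw [← hG e he j] at hj
        exact absurd (e.injective hj) (by simp)
      · have h := he (.inr r)
        rw [hj] at h
        exact h
  have h2 := finrank_splits (m := m) (c := c) (d := d1 U rho x) (u := d2 U rho x)
    {e | ∀ j, d2 U rho x (e j) = d2 U rho x j} (fun e he => hG e he none) mu A
    (by
      intro hc
      obtain ⟨q', _, h⟩ := Finset.mem_image.1 hc
      exact absurd (Sum.inl_injective h) (by simp)) (by
      intro q hq
      obtain ⟨q', _, rfl⟩ := Finset.mem_image.1 hq
      rfl) (by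
      intro e he q hq
      obtain ⟨q', _, rfl⟩ := Finset.mem_image.1 hq
      exact hG e he _) (by rw [hsumA]; exact Nat.le_add_left _ _)
  have h3 : dA (d1 U rho x) (d2 U rho x) c A = d2 U rho x := by
    funext j
    rw [dA, hsumA]
    rcases j with (_ | q) | r
    · rw [if_pos rfl]
      exact Nat.add_sub_cancel _ _
    · rw [if_neg (fun h => absurd (Sum.inl_injective h) (by simp)),
        if_pos (Finset.mem_image_of_mem _ (Finset.mem_univ _))]
    · rw [if_neg (by simp [c]), if_neg]
      · rfl
      · intro hc
        obtain ⟨q', _, h⟩ := Finset.mem_image.1 hc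
        cases h
  rw [h3, PW_univ] at h2
  have h4 := h1.trans h2
  rw [hT m σ, hT m σ, map_sum_val, map_sum_val] at h4
  have h5 : (Finset.univ : Finset (Fin U.toList.length)).val.map
      (fun q => d2 U rho x (.inl (some q))) = U := map_univ_toList U
  have h6 : (Finset.univ : Finset (Fin rho.toList.length)).val.map
      (fun r => d2 U rho x (.inr r)) = rho := map_univ_toList rho
  have h7 : (Finset.univ : Finset (Fin rho.toList.length)).val.map
      (fun r => d1 U rho x (.inr r)) = rho := map_univ_toList rho
  have h8 : ((Finset.univ : Finset (Fin U.toList.length)).val.map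
      (fun q => d1 U rho x (.inl (some q)))).filter (0 < ·) = 0 := by
    rw [Multiset.filter_eq_nil]
    intro y hy
    obtain ⟨q, _, rfl⟩ := Multiset.mem_map.1 hy
    exact Nat.lt_irrefl 0
  have h9 : d1 U rho x (.inl none) = x + U.sum := rfl
  have h10 : d2 U rho x (.inl none) = x := rfl
  have h11 : ((x + U.sum) ::ₘ ((Finset.univ : Finset (Fin U.toList.length)).val.map
      (fun q => d1 U rho x (.inl (some q))) + rho)).filter (0 < ·) =
      ((x + U.sum) ::ₘ rho).filter (0 < ·) := by
    rw [Multiset.filter_cons_of_pos _ (by omega), Multiset.filter_add, h8, zero_add,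
      Multiset.filter_cons_of_pos _ (by omega)]
  rw [h5, h6, h7, h9, h10, h11, ← nn_filter hT, ← nn_filter hT] at h4
  exact h4

end Vale.Agent.P181.SZR3
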