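import Vale.Agent.P181.H583.HWDef

set_option autoImplicit false

/-!
# P181, SZ, R3: column polarization

The column operators `X (i, c) ↦ X (i, a)` commute with the row operators; their powers are
injective on the polynomials which do not involve the column `a`.
-/

open MvPolynomial

namespace Vale.Agent.P181.SZR3

open Vale.Agent.P181.T4 (HW rowOp rowOp_apply mem_HW)

variable {m : ℕ} {σ : Type}

/-- The column derivation `X (i, c) ↦ X (i, a)`. -/
noncomputable def colD [DecidableEq σ] (a c : σ) :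
    Derivation ℂ (MvPolynomial (Fin m × σ) ℂ) (MvPolynomial (Fin m × σ) ℂ) :=
  mkDerivation ℂ (fun p => if p.2 = c then X (p.1, a) else 0)

/-- The row derivation `X (i, j) ↦ X (s, j)`. -/
noncomputable def rowD (s i : Fin m) :
    Derivation ℂ (MvPolynomial (Fin m × σ) ℂ) (MvPolynomial (Fin m × σ) ℂ) :=
  mkDerivation ℂ (fun p => if p.1 = i then X (s, p.2) else 0)

lemma colD_X [DecidableEq σ] (a c : σ) (p : Fin m × σ) :
    colD a c (X p : MvPolynomial (Fin m × σ) ℂ) = if p.2 = c then X (p.1, a) else 0 :=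
  mkDerivation_X _ _ _

lemma rowD_X (s i : Fin m) (p : Fin m × σ) :
    rowD s i (X p : MvPolynomial (Fin m × σ) ℂ) = if p.1 = i then X (s, p.2) else 0 :=
  mkDerivation_X _ _ _

lemma pderiv_X' [DecidableEq σ] (q p : Fin m × σ) :
    pderiv q (X p : MvPolynomial (Fin m × σ) ℂ) = if p = q then 1 else 0 := by
  split_ifs with h
  · subst h
    exact pderiv_X_self _
  · exact pderiv_X_of_ne h

lemma der_sum {ι : Type} (s : Finset ι)
    (D : ι → Derivation ℂ (MvPolynomial (Fin m × σ) ℂ) (MvPolynomial (Fin m × σ) ℂ))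
    (f : MvPolynomial (Fin m × σ) ℂ) : (∑ j ∈ s, D j) f = ∑ j ∈ s, D j f := by
  have h := congrFun (map_sum (Derivation.coeFnAddMonoidHom (R := ℂ)
    (A := MvPolynomial (Fin m × σ) ℂ) (M := MvPolynomial (Fin m × σ) ℂ)) D s) f
  rw [Finset.sum_apply] at h
  exact h

lemma rowD_eq [Fintype σ] (s i : Fin m) (f : MvPolynomial (Fin m × σ) ℂ) :
    rowD s i f = rowOp s i f := by
  classical
  have h : (rowD s i : Derivation ℂ (MvPolynomial (Fin m × σ) ℂ) (MvPolynomial (Fin m × σ) ℂ)) =
      ∑ j, (X (s, j) : MvPolynomial (Fin m × σ) ℂ) • pderiv (R := ℂ) (i, j) := by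
    apply derivation_ext
    rintro ⟨k, l⟩
    rw [rowD_X, der_sum]
    simp only [Derivation.coe_smul, Pi.smul_apply, smul_eq_mul, pderiv_X', Prod.mk.injEq]
    by_cases hk : k = i
    · simp [hk]
    · simp [hk]
  rw [h, rowOp_apply, der_sum]
  rfl

lemma colD_eq [Fintype σ] [DecidableEq σ] (a c : σ) (f : MvPolynomial (Fin m × σ) ℂ) :
    colD a c f = ∑ i, X (i, a) * pderiv (i, c) f := by
  have h : (colD a c : Derivation ℂ (MvPolynomial (Fin m × σ) ℂ) (MvPolynomial (Fin m × σ) ℂ)) =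
      ∑ i, (X (i, a) : MvPolynomial (Fin m × σ) ℂ) • pderiv (R := ℂ) (i, c) := by
    apply derivation_ext
    rintro ⟨k, l⟩
    rw [colD_X, der_sum]
    simp only [Derivation.coe_smul, Pi.smul_apply, smul_eq_mul, pderiv_X', Prod.mk.injEq]
    by_cases hk : l = c
    · simp [hk]
    · simp [hk]
  rw [h, der_sum]
  rfl

/-- Column and row operators commute. -/
lemma rowD_colD [DecidableEq σ] (s i : Fin m) (a c : σ) (f : MvPolynomial (Fin m × σ) ℂ) :
    rowD s i (colD a c f) = colD a c (rowD s i f) := by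
  have h : ⁅(rowD s i : Derivation ℂ (MvPolynomial (Fin m × σ) ℂ) (MvPolynomial (Fin m × σ) ℂ)),
      (colD a c : Derivation ℂ (MvPolynomial (Fin m × σ) ℂ) (MvPolynomial (Fin m × σ) ℂ))⁆ = 0 := by
    apply derivation_ext
    rintro ⟨k, l⟩
    rw [Derivation.commutator_apply, colD_X, rowD_X, Derivation.zero_apply]
    by_cases hk : k = i <;> by_cases hl : l = c <;> simp [hk, hl, colD_X, rowD_X]
  have h1 := congrArg (fun D => D f) h
  simp only [Derivation.commutator_apply, Derivation.zero_apply] at h1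
  exact sub_eq_zero.1 h1

/-- The commutator of the two column operators. -/
lemma colD_colD [DecidableEq σ] {a c : σ} (hac : a ≠ c) (f : MvPolynomial (Fin m × σ) ℂ) :
    colD c a (colD a c f) = colD a c (colD c a f) + colD c c f - colD a a f := by
  have h : ⁅(colD c a : Derivation ℂ (MvPolynomial (Fin m × σ) ℂ) (MvPolynomial (Fin m × σ) ℂ)),
      (colD a c : Derivation ℂ (MvPolynomial (Fin m × σ) ℂ) (MvPolynomial (Fin m × σ) ℂ))⁆ =
      colD c c - colD a a := by
    apply derivation_ext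
    rintro ⟨k, l⟩
    rw [Derivation.commutator_apply, colD_X, colD_X, Derivation.sub_apply, colD_X, colD_X]
    by_cases hk : l = c
    · subst hk
      simp [colD_X, hac, hac.symm]
    · by_cases hl : l = a
      · subst hl
        simp [colD_X, hac, hac.symm]
      · simp [hk, hl]
  have h1 := congrArg (fun D => D f) h
  simp only [Derivation.commutator_apply, Derivation.sub_apply] at h1
  rw [sub_eq_iff_eq_add] at h1
  rw [h1]
  ring

/-- The column degrees. -/
def ColH (d : σ → ℕ) (f : MvPolynomial (Fin m × σ) ℂ) : Prop :=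
  ∀ v, coeff v f ≠ 0 → ∀ j, ∑ i, v (i, j) = d j

/-- The row degrees. -/
def RowH [Fintype σ] (mu : Fin m → ℕ) (f : MvPolynomial (Fin m × σ) ℂ) : Prop :=
  ∀ v, coeff v f ≠ 0 → ∀ i, ∑ j, v (i, j) = mu i

lemma coeff_X_mul_pderiv {τ : Type} [DecidableEq τ] (p q : τ) (f : MvPolynomial τ ℂ) (v : τ →₀ ℕ)
    (h : coeff v (X p * pderiv q f) ≠ 0) :
    ∃ u : τ →₀ ℕ, v = u + Finsupp.single p 1 ∧ coeff (u + Finsupp.single q 1) f ≠ 0 := by
  rw [coeff_X_mul'] at h
  split_ifs at h with hp
  · refine ⟨v - Finsupp.single p 1, ?_, ?_⟩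
    · ext t
      rw [Finsupp.mem_support_iff] at hp
      by_cases ht : t = p
      · subst ht
        simp
        omega
      · simp [Ne.symm ht]
    · rw [coeff_pderiv] at h
      exact left_ne_zero_of_mul h
  · exact absurd rfl h

lemma exists_coeff_colD [Fintype σ] [DecidableEq σ] (a c : σ) (f : MvPolynomial (Fin m × σ) ℂ)
    (v : Fin m × σ →₀ ℕ) (h : coeff v (colD a c f) ≠ 0) :
    ∃ (i : Fin m) (u : Fin m × σ →₀ ℕ), v = u + Finsupp.single (i, a) 1 ∧
      coeff (u + Finsupp.single (i, c) 1) f ≠ 0 := by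
  rw [colD_eq, coeff_sum] at h
  obtain ⟨i, _, hi⟩ := Finset.exists_ne_zero_of_sum_ne_zero h
  exact ⟨i, coeff_X_mul_pderiv _ _ f v hi⟩

lemma sum_single_col [DecidableEq σ] (i : Fin m) (a j : σ) :
    ∑ k, (Finsupp.single (i, a) 1 : Fin m × σ →₀ ℕ) (k, j) = if a = j then 1 else 0 := by
  simp only [Finsupp.single_apply, Prod.mk.injEq]
  by_cases h : a = j
  · simp [h]
  · simp [h]

lemma sum_single_row [Fintype σ] [DecidableEq σ] (i k : Fin m) (a : σ) :
    ∑ j, (Finsupp.single (i, a) 1 : Fin m × σ →₀ ℕ) (k, j) = if i = k then 1 else 0 := by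
  simp only [Finsupp.single_apply, Prod.mk.injEq]
  by_cases h : i = k
  · simp [h]
  · simp [h]

lemma colH_colD [Fintype σ] [DecidableEq σ] {a c : σ} {d d' : σ → ℕ}
    {f : MvPolynomial (Fin m × σ) ℂ} (hf : ColH d f)
    (h : ∀ j, d' j + (if c = j then 1 else 0) = d j + (if a = j then 1 else 0)) :
    ColH d' (colD a c f) := by
  intro v hv j
  obtain ⟨i, u, rfl, hu⟩ := exists_coeff_colD a c f v hv
  have h1 := hf _ hu j
  have h2 := h j
  simp only [Finsupp.add_apply, Finset.sum_add_distrib, sum_single_col] at h1 ⊢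
  omega

lemma rowH_colD [Fintype σ] [DecidableEq σ] {a c : σ} {mu : Fin m → ℕ}
    {f : MvPolynomial (Fin m × σ) ℂ} (hf : RowH mu f) : RowH mu (colD a c f) := by
  intro v hv k
  obtain ⟨i, u, rfl, hu⟩ := exists_coeff_colD a c f v hv
  have h1 := hf _ hu k
  simp only [Finsupp.add_apply, Finset.sum_add_distrib, sum_single_row] at h1 ⊢
  omega

/-- Euler's identity for one column. -/
lemma colD_self [Fintype σ] [DecidableEq σ] {c : σ} {d : σ → ℕ}
    {f : MvPolynomial (Fin m × σ) ℂ} (hf : ColH d f) : colD c c f = (d c : ℂ) • f := by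
  have h0 : f = ∑ v ∈ f.support, monomial v (coeff v f) := f.as_sum
  have h1 : colD c c f = ∑ v ∈ f.support, colD c c (monomial v (coeff v f)) := by
    conv_lhs => rw [h0]
    exact map_sum _ _ _
  rw [h1]
  conv_rhs => rw [h0]
  rw [Finset.smul_sum]
  apply Finset.sum_congr rfl
  intro v hv
  rw [colD_eq]
  simp_rw [X_mul_pderiv_monomial]
  rw [← Finset.sum_smul, hf v (mem_support_iff.1 hv) c]
  exact (Nat.cast_smul_eq_nsmul ℂ _ _).symm

lemma colD_zero_of_colH [Fintype σ] [DecidableEq σ] {a c : σ} {d : σ → ℕ} (hd : d c = 0)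
    {f : MvPolynomial (Fin m × σ) ℂ} (hf : ColH d f) : colD a c f = 0 := by
  apply MvPolynomial.ext
  intro v
  rw [coeff_zero]
  by_contra hv
  obtain ⟨i, u, rfl, hu⟩ := exists_coeff_colD a c f v hv
  have h1 := hf _ hu c
  simp only [Finsupp.add_apply, Finset.sum_add_distrib, sum_single_col] at h1
  simp [hd] at h1

end Vale.Agent.P181.SZR3
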