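import Vale.Agent.P181.SZR3.Col
import Vale.Agent.P181.SZ.Defs

set_option autoImplicit false

/-!
# P181, SZ, R3: splitting a column

Powers of the column operators, and the splitting of one column into several new columns.
-/

open MvPolynomial

namespace Vale.Agent.P181.SZR3

open Vale.Agent.P181.T4 (HW rowOp rowOp_apply mem_HW)

variable {m : ℕ} {σ : Type} [Fintype σ] [DecidableEq σ]

/-- The powers of the column operator. -/
noncomputable def itD (a c : σ) (u : ℕ) :
    MvPolynomial (Fin m × σ) ℂ →ₗ[ℂ] MvPolynomial (Fin m × σ) ℂ :=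
  ((colD a c : Derivation ℂ (MvPolynomial (Fin m × σ) ℂ)
    (MvPolynomial (Fin m × σ) ℂ)).toLinearMap : Module.End ℂ (MvPolynomial (Fin m × σ) ℂ)) ^ u

omit [Fintype σ] in
lemma itD_zero (a c : σ) (f : MvPolynomial (Fin m × σ) ℂ) : itD a c 0 f = f := by
  rw [itD, pow_zero]
  rfl

omit [Fintype σ] in
lemma itD_succ (a c : σ) (u : ℕ) (f : MvPolynomial (Fin m × σ) ℂ) :
    itD a c (u + 1) f = colD a c (itD a c u f) := by
  rw [itD, pow_succ']
  rfl

/-- The degrees after `u` applications. -/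
def dd (d : σ → ℕ) (a c : σ) (u : ℕ) (j : σ) : ℕ :=
  if j = a then u else if j = c then d c - u else d j

lemma colH_itD {a c : σ} (hac : a ≠ c) {d : σ → ℕ} (hd : d a = 0)
    {f : MvPolynomial (Fin m × σ) ℂ} (hf : ColH d f) (u : ℕ) (hu : u ≤ d c) :
    ColH (dd d a c u) (itD a c u f) := by
  induction u with
  | zero =>
    rw [itD_zero]
    intro v hv j
    rw [hf v hv j, dd]
    split_ifs with h1 h2
    · rw [h1, hd]
    · rw [h2, Nat.sub_zero]
    · rfl
  | succ u ih =>
    rw [itD_succ]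
    refine colH_colD (ih (by omega)) fun j => ?_
    simp only [dd]
    by_cases h1 : j = a
    · subst h1
      simp [Ne.symm hac]
    · by_cases h2 : j = c
      · subst h2
        simp [hac, Ne.symm hac]
        omega
      · simp [h1, h2, Ne.symm h1, Ne.symm h2]

lemma rowH_itD {a c : σ} {mu : Fin m → ℕ} {f : MvPolynomial (Fin m × σ) ℂ} (hf : RowH mu f)
    (u : ℕ) : RowH mu (itD a c u f) := by
  induction u with
  | zero => rwa [itD_zero]
  | succ u ih =>
    rw [itD_succ]
    exact rowH_colD ih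

lemma rowD_itD {a c : σ} {s i : Fin m} {f : MvPolynomial (Fin m × σ) ℂ} (hf : rowD s i f = 0)
    (u : ℕ) : rowD s i (itD a c u f) = 0 := by
  induction u with
  | zero => rwa [itD_zero]
  | succ u ih => rw [itD_succ, rowD_colD, ih, map_zero]

lemma mem_HW_itD {a c : σ} {mu : Fin m → ℕ} {f : MvPolynomial (Fin m × σ) ℂ}
    (hf : f ∈ HW m σ mu) (u : ℕ) : itD a c u f ∈ HW m σ mu := by
  rw [mem_HW] at hf ⊢
  refine ⟨rowH_itD hf.1 u, fun s i hsi => ?_⟩
  rw [← rowD_eq]
  exact rowD_itD (by rw [rowD_eq]; exact hf.2 s i hsi) u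

lemma rename_colD (e : Equiv.Perm σ) (a c : σ) (f : MvPolynomial (Fin m × σ) ℂ) :
    rename (fun p : Fin m × σ => (p.1, e p.2)) (colD a c f) =
      colD (e a) (e c) (rename (fun p : Fin m × σ => (p.1, e p.2)) f) := by
  have hinj : Function.Injective (fun p : Fin m × σ => (p.1, e p.2)) := by
    rintro ⟨i, j⟩ ⟨i', j'⟩ h
    simp only [Prod.mk.injEq, EmbeddingLike.apply_eq_iff_eq] at h
    rw [h.1, h.2]
  rw [colD_eq, colD_eq, map_sum]
  apply Finset.sum_congr rfl
  intro i _
  rw [map_mul, rename_X, ← pderiv_rename hinj]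

lemma rename_itD {e : Equiv.Perm σ} {a c : σ} (ha : e a = a) (hc : e c = c)
    {f : MvPolynomial (Fin m × σ) ℂ}
    (hf : rename (fun p : Fin m × σ => (p.1, e p.2)) f = f) (u : ℕ) :
    rename (fun p : Fin m × σ => (p.1, e p.2)) (itD a c u f) = itD a c u f := by
  induction u with
  | zero => rwa [itD_zero]
  | succ u ih => rw [itD_succ, rename_colD, ih, ha, hc]

lemma colD_itD {a c : σ} (hac : a ≠ c) {d : σ → ℕ} (hd : d a = 0)
    {f : MvPolynomial (Fin m × σ) ℂ} (hf : ColH d f) (u : ℕ) (hu : u + 1 ≤ d c) :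
    colD c a (itD a c (u + 1) f) = (((u : ℂ) + 1) * ((d c : ℂ) - u)) • itD a c u f := by
  induction u with
  | zero =>
    rw [itD_succ, itD_zero, colD_colD hac, colD_zero_of_colH hd hf, map_zero, colD_self hf,
      colD_self hf, hd]
    simp
  | succ u ih =>
    have h1 := colH_itD hac hd hf (u + 1) (by omega)
    have h2 : dd d a c (u + 1) a = u + 1 := by simp [dd]
    have h3 : dd d a c (u + 1) c = d c - (u + 1) := by simp [dd, Ne.symm hac]
    rw [itD_succ a c (u + 1), colD_colD hac, ih (by omega), Derivation.map_smul,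
      ← itD_succ a c u, colD_self h1, colD_self h1, h2, h3, ← add_smul, ← sub_smul]
    congr 1
    rw [Nat.cast_sub (by omega)]
    push_cast
    ring

lemma itD_injective {a c : σ} (hac : a ≠ c) {d : σ → ℕ} (hd : d a = 0)
    {f : MvPolynomial (Fin m × σ) ℂ} (hf : ColH d f) (u : ℕ) (hu : u ≤ d c)
    (h0 : itD a c u f = 0) : f = 0 := by
  induction u with
  | zero => rwa [itD_zero] at h0
  | succ u ih =>
    apply ih (by omega)
    have h1 := colD_itD hac hd hf u hu
    rw [h0, map_zero] at h1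
    have h2 : (((u : ℂ) + 1) * ((d c : ℂ) - u)) ≠ 0 := by
      apply mul_ne_zero
      · exact_mod_cast Nat.succ_ne_zero u
      · rw [sub_ne_zero]
        intro h
        have h3 : d c = u := by exact_mod_cast h
        omega
    exact (smul_eq_zero.1 h1.symm).resolve_left h2

/-- The highest weight polynomials with column degrees `d`, invariant under `G`. -/
noncomputable def PW (m : ℕ) (σ : Type) [Fintype σ] (G : Set (Equiv.Perm σ)) (d : σ → ℕ)
    (mu : Fin m → ℕ) : Submodule ℂ (MvPolynomial (Fin m × σ) ℂ) where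
  carrier := {f | f ∈ HW m σ mu ∧ ColH d f ∧
    ∀ e ∈ G, rename (fun p : Fin m × σ => (p.1, e p.2)) f = f}
  zero_mem' := ⟨zero_mem _, fun v hv => absurd (coeff_zero v) hv, fun e _ => map_zero _⟩
  add_mem' := by
    rintro f g ⟨hf1, hf2, hf3⟩ ⟨hg1, hg2, hg3⟩
    refine ⟨add_mem hf1 hg1, fun v hv j => ?_, fun e he => by rw [map_add, hf3 e he, hg3 e he]⟩
    rw [coeff_add] at hv
    by_cases h : coeff v f = 0
    · rw [h, zero_add] at hv
      exact hg2 v hv j
    · exact hf2 v h j
  smul_mem' := by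
    rintro c f ⟨hf1, hf2, hf3⟩
    refine ⟨Submodule.smul_mem _ c hf1, fun v hv j => ?_, fun e he => ?_⟩
    · rw [coeff_smul, smul_eq_mul] at hv
      exact hf2 v (right_ne_zero_of_mul hv) j
    · rw [map_smul, hf3 e he]

omit [DecidableEq σ] in
lemma mem_PW {G : Set (Equiv.Perm σ)} {d : σ → ℕ} {mu : Fin m → ℕ}
    {f : MvPolynomial (Fin m × σ) ℂ} :
    f ∈ PW m σ G d mu ↔ f ∈ HW m σ mu ∧ ColH d f ∧
      ∀ e ∈ G, rename (fun p : Fin m × σ => (p.1, e p.2)) f = f := Iff.rfl

omit [DecidableEq σ] in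
lemma PW_le_HW (G : Set (Equiv.Perm σ)) (d : σ → ℕ) (mu : Fin m → ℕ) :
    PW m σ G d mu ≤ HW m σ mu := fun _ h => h.1

instance finiteDimensional_PW (m : ℕ) (σ : Type) [Fintype σ] (G : Set (Equiv.Perm σ))
    (d : σ → ℕ) (mu : Fin m → ℕ) : FiniteDimensional ℂ (PW m σ G d mu) :=
  Submodule.finiteDimensional_of_le (PW_le_HW G d mu)

/-- One split. -/
lemma finrank_step {a c : σ} (hac : a ≠ c) {d : σ → ℕ} (hd : d a = 0) (u : ℕ) (hu : u ≤ d c)
    (G : Set (Equiv.Perm σ)) (hG : ∀ e ∈ G, e a = a ∧ e c = c) (mu : Fin m → ℕ) :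
    Module.finrank ℂ (PW m σ G d mu) ≤ Module.finrank ℂ (PW m σ G (dd d a c u) mu) := by
  have h : ∀ f ∈ PW m σ G d mu, itD a c u f ∈ PW m σ G (dd d a c u) mu := fun f hf =>
    ⟨mem_HW_itD hf.1 u, colH_itD hac hd hf.2.1 u hu, fun e he =>
      rename_itD (hG e he).1 (hG e he).2 (hf.2.2 e he) u⟩
  let L : PW m σ G d mu →ₗ[ℂ] PW m σ G (dd d a c u) mu := (itD a c u).restrict h
  have hL : Function.Injective L := by
    rw [← LinearMap.ker_eq_bot, LinearMap.ker_eq_bot']
    intro f hf
    apply Subtype.ext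
    have h1 : itD a c u f.1 = 0 := congrArg Subtype.val hf
    exact itD_injective hac hd f.2.2.1 u hu h1
  exact LinearMap.finrank_le_finrank_of_injective hL

/-- The degrees after several splits. -/
def dA (d u : σ → ℕ) (c : σ) (A : Finset σ) (j : σ) : ℕ :=
  if j = c then d c - ∑ q ∈ A, u q else if j ∈ A then u j else d j

/-- Several splits. -/
lemma finrank_splits {c : σ} {d u : σ → ℕ} (G : Set (Equiv.Perm σ)) (hGc : ∀ e ∈ G, e c = c)
    (mu : Fin m → ℕ) (A : Finset σ) (hc : c ∉ A) (hd : ∀ q ∈ A, d q = 0)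
    (hG : ∀ e ∈ G, ∀ q ∈ A, e q = q) (hu : ∑ q ∈ A, u q ≤ d c) :
    Module.finrank ℂ (PW m σ G d mu) ≤ Module.finrank ℂ (PW m σ G (dA d u c A) mu) := by
  induction A using Finset.induction_on with
  | empty =>
    have h : dA d u c ∅ = d := by
      funext j
      simp only [dA, Finset.sum_empty, Nat.sub_zero, Finset.notMem_empty, if_false]
      split_ifs with h1
      · rw [h1]
      · rfl
    rw [h]
  | insert q A hq ih =>
    have hcA : c ∉ A := fun h => hc (Finset.mem_insert_of_mem h)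
    have hqc : q ≠ c := fun h => hc (h ▸ Finset.mem_insert_self q A)
    rw [Finset.sum_insert hq] at hu
    have h1 := ih hcA (fun q' hq' => hd q' (Finset.mem_insert_of_mem hq'))
      (fun e he q' hq' => hG e he q' (Finset.mem_insert_of_mem hq')) (by omega)
    have h2 : dA d u c A q = 0 := by
      simp only [dA, if_neg hqc, if_neg hq]
      exact hd q (Finset.mem_insert_self q A)
    have h3 : dA d u c A c = d c - ∑ q ∈ A, u q := by simp [dA]
    have h4 := finrank_step (m := m) hqc h2 (u q) (by omega) G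
      (fun e he => ⟨hG e he q (Finset.mem_insert_self q A), hGc e he⟩) mu
    have h5 : dd (dA d u c A) q c (u q) = dA d u c (insert q A) := by
      funext j
      simp only [dd, dA, Finset.sum_insert hq, Finset.mem_insert, if_true]
      by_cases hj : j = q
      · subst hj
        simp [hqc]
      · by_cases hj2 : j = c
        · subst hj2
          simp [hj]
          omega
        · simp [hj, hj2]
    rw [h5] at h4
    exact h1.trans h4

end Vale.Agent.P181.SZR3
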